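import Mathlib
import Vale.Agent.Lib.P328.helper74.ChainDefs
import Vale.Agent.Lib.P328.helper74.NegCorrCore

/-!
P328: the column step of the level sequences (`Lor` is preserved when a column is added).

The binary form of `Lor` at a level `r` of the new sequences is
`(W (r+1) y + L r z)² - W r (W (r+2) y² + 2 L (r+1) y z + Q r z²)`.  All six window sums are
rewritten as ascending sums over the part of the window inside the support, and the inequality
is the path inequality `core_slack` for the ratios `(w (ρ+1) y + l ρ z) / w ρ`, with a virtual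
step at the bottom of the window.
-/

namespace Vale.Agent.Lib.P328.helper46

open Finset
open Vale.Agent.Lib.P328.helper74

/-- A window sum written downwards from `R` equals an ascending sum over a part of the window,
when the function vanishes on the rest of the window. -/
theorem sum_window (f : ℤ → ℝ) (m : ℕ) (hf : ∀ ρ : ℤ, (ρ < 0 ∨ (m : ℤ) < ρ) → f ρ = 0)
    (R : ℤ) (C : ℕ) (a0 : ℤ) (K : ℕ) (h1 : R - (C : ℤ) ≤ a0) (h2 : a0 + (K : ℤ) ≤ R + 1)
    (hlo : a0 ≤ 0 ∨ a0 = R - (C : ℤ)) (hhi : (m : ℤ) < a0 + (K : ℤ) ∨ a0 + (K : ℤ) = R + 1) :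
    ∑ k ∈ range (C + 1), f (R - (k : ℤ)) = ∑ i ∈ range K, f (a0 + (i : ℤ)) := by
  have e1 : ∑ k ∈ range (C + 1), f (R - (k : ℤ)) = ∑ ρ ∈ Finset.Icc (R - (C : ℤ)) R, f ρ := by
    refine Finset.sum_nbij' (fun k : ℕ => R - (k : ℤ)) (fun ρ : ℤ => (R - ρ).toNat) ?_ ?_ ?_ ?_ ?_
    · intro k hk
      rw [Finset.mem_range] at hk
      rw [Finset.mem_Icc]
      constructor <;> omega
    · intro ρ hρ
      rw [Finset.mem_Icc] at hρ
      rw [Finset.mem_range]
      omega
    · intro k _
      simp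
    · intro ρ hρ
      rw [Finset.mem_Icc] at hρ
      show R - ((R - ρ).toNat : ℤ) = ρ
      omega
    · intro k _
      rfl
  have e2 : ∑ i ∈ range K, f (a0 + (i : ℤ)) = ∑ ρ ∈ Finset.Ico a0 (a0 + (K : ℤ)), f ρ := by
    refine Finset.sum_nbij' (fun i : ℕ => a0 + (i : ℤ)) (fun ρ : ℤ => (ρ - a0).toNat) ?_ ?_ ?_ ?_ ?_
    · intro k hk
      rw [Finset.mem_range] at hk
      rw [Finset.mem_Ico]
      constructor <;> omega
    · intro ρ hρ
      rw [Finset.mem_Ico] at hρ
      rw [Finset.mem_range]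
      omega
    · intro k _
      simp
    · intro ρ hρ
      rw [Finset.mem_Ico] at hρ
      show a0 + ((ρ - a0).toNat : ℤ) = ρ
      omega
    · intro k _
      rfl
  rw [e1, e2]
  symm
  apply Finset.sum_subset
  · intro ρ hρ
    rw [Finset.mem_Ico] at hρ
    rw [Finset.mem_Icc]
    constructor <;> omega
  · intro ρ hρ hnot
    rw [Finset.mem_Icc] at hρ
    rw [Finset.mem_Ico] at hnot
    apply hf
    rcases hlo with hlo | hlo <;> rcases hhi with hhi | hhi <;> omega

/-- A nonnegative binary quadratic form has nonpositive discriminant. -/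
theorem disc_le (α β γ : ℝ) (hF : ∀ y z : ℝ, 0 ≤ α * y ^ 2 - 2 * β * y * z + γ * z ^ 2) :
    β ^ 2 ≤ α * γ := by
  have hα : 0 ≤ α := by
    have := hF 1 0
    simpa using this
  rcases hα.eq_or_lt with h0 | hpos
  · have h1 := hF ((γ + 1) / 2) β
    rw [← h0] at h1 ⊢
    nlinarith [sq_nonneg β]
  · have h1 := hF β α
    by_contra hcon
    have hcon := not_le.mp hcon
    nlinarith [mul_pos hpos (sub_pos.mpr hcon)]

/-- The weights of a `Lor` system are nonnegative. -/
theorem w_nonneg {m : ℕ} {w l q : ℤ → ℝ} (h : Lor m w l q) (ρ : ℤ) : 0 ≤ w ρ := by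
  obtain ⟨hpos, hw0, _, _, _⟩ := h
  by_cases hin : 0 ≤ ρ ∧ ρ ≤ (m : ℤ)
  · exact le_of_lt (hpos ρ hin.1 hin.2)
  · have hout : ρ < 0 ∨ (m : ℤ) < ρ := by omega
    rw [hw0 ρ hout]

/-- The window inequality: on a window `[a0, a0 + N]` inside the support, with a virtual step
`s` at the bottom of the window. -/
theorem window_main {m : ℕ} {w l q : ℤ → ℝ} (h : Lor m w l q) (a0 : ℤ) (N : ℕ)
    (h0 : 0 ≤ a0) (hN : a0 + (N : ℤ) ≤ (m : ℤ)) (y z s : ℝ) :
    (∑ i ∈ range (N + 1), w (a0 + (i : ℤ)))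
      * ((∑ i ∈ range (N + 1), w (a0 + 2 + (i : ℤ))) * y ^ 2
          + 2 * (∑ i ∈ range (N + 1), l (a0 + 1 + (i : ℤ))) * y * z
          + (∑ i ∈ range (N + 1), q (a0 + (i : ℤ))) * z ^ 2
          + 2 * s * (w (a0 + 1) * y + l a0 * z) + s ^ 2 * w a0
          - (if N = 0 then 0 else s ^ 2 * w (a0 + 1)))
      ≤ ((∑ i ∈ range (N + 1), w (a0 + 1 + (i : ℤ))) * y
          + (∑ i ∈ range (N + 1), l (a0 + (i : ℤ))) * z + s * w a0) ^ 2 := by
  have hwnn := w_nonneg h
  obtain ⟨hpos, hw0, hl0, hq0, hmain⟩ := h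
  -- local sequences
  let u : ℕ → ℝ := fun i => w (a0 + (i : ℤ))
  let φ : ℕ → ℝ := fun i =>
    (w (a0 + 1 + (i : ℤ)) * y + l (a0 + (i : ℤ)) * z) / w (a0 + (i : ℤ))
  let p : ℕ → ℝ := fun i =>
    ((w (a0 + 1 + (i : ℤ)) ^ 2 - w (a0 + (i : ℤ)) * w (a0 + 2 + (i : ℤ))) * y ^ 2
      - 2 * (w (a0 + (i : ℤ)) * l (a0 + 1 + (i : ℤ)) - w (a0 + 1 + (i : ℤ)) * l (a0 + (i : ℤ)))
          * y * z
      + (l (a0 + (i : ℤ)) ^ 2 - w (a0 + (i : ℤ)) * q (a0 + (i : ℤ))) * z ^ 2) / w (a0 + (i : ℤ))
  let e : ℕ → ℝ := fun i => p i / u (i + 1)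
  have hu : ∀ i : ℕ, u i = w (a0 + (i : ℤ)) := fun i => rfl
  have hu1 : ∀ i : ℕ, u (i + 1) = w (a0 + 1 + (i : ℤ)) := by
    intro i
    show w (a0 + ((i + 1 : ℕ) : ℤ)) = w (a0 + 1 + (i : ℤ))
    congr 1
    push_cast
    ring
  have hu2 : ∀ i : ℕ, u (i + 2) = w (a0 + 2 + (i : ℤ)) := by
    intro i
    show w (a0 + ((i + 2 : ℕ) : ℤ)) = w (a0 + 2 + (i : ℤ))
    congr 1
    push_cast
    ring
  have hl1 : ∀ i : ℕ, l (a0 + ((i + 1 : ℕ) : ℤ)) = l (a0 + 1 + (i : ℤ)) := by
    intro i
    congr 1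
    push_cast
    ring
  have hupos : ∀ i ≤ N, 0 < u i := by
    intro i hi
    have hi' : (i : ℤ) ≤ (N : ℤ) := by exact_mod_cast hi
    exact hpos (a0 + (i : ℤ)) (by omega) (by omega)
  have hform : ∀ i ≤ N, ∀ Y Z : ℝ,
      0 ≤ (w (a0 + 1 + (i : ℤ)) ^ 2 - w (a0 + (i : ℤ)) * w (a0 + 2 + (i : ℤ))) * Y ^ 2
        - 2 * (w (a0 + (i : ℤ)) * l (a0 + 1 + (i : ℤ)) - w (a0 + 1 + (i : ℤ)) * l (a0 + (i : ℤ)))
            * Y * Z
        + (l (a0 + (i : ℤ)) ^ 2 - w (a0 + (i : ℤ)) * q (a0 + (i : ℤ))) * Z ^ 2 := by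
    intro i hi Y Z
    have hi' : (i : ℤ) ≤ (N : ℤ) := by exact_mod_cast hi
    have := hmain (a0 + (i : ℤ)) (by omega) (by omega) Y Z
    have e1 : a0 + (i : ℤ) + 1 = a0 + 1 + (i : ℤ) := by ring
    have e2 : a0 + (i : ℤ) + 2 = a0 + 2 + (i : ℤ) := by ring
    rw [e1, e2] at this
    exact this
  have hp : ∀ i ≤ N, 0 ≤ p i := fun i hi => div_nonneg (hform i hi y z) (le_of_lt (hupos i hi))
  have hα : ∀ i ≤ N, w (a0 + (i : ℤ)) * w (a0 + 2 + (i : ℤ)) ≤ w (a0 + 1 + (i : ℤ)) ^ 2 := by
    intro i hi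
    have := hform i hi 1 0
    simp at this
    linarith
  have hdisc : ∀ i ≤ N,
      (w (a0 + (i : ℤ)) * l (a0 + 1 + (i : ℤ)) - w (a0 + 1 + (i : ℤ)) * l (a0 + (i : ℤ))) ^ 2
        ≤ (w (a0 + 1 + (i : ℤ)) ^ 2 - w (a0 + (i : ℤ)) * w (a0 + 2 + (i : ℤ)))
          * (l (a0 + (i : ℤ)) ^ 2 - w (a0 + (i : ℤ)) * q (a0 + (i : ℤ))) :=
    fun i hi => disc_le _ _ _ (hform i hi)
  -- the path inequality
  have hcs := core_slack u φ e s N hupos
    (fun i hi => div_nonneg (hp i (le_of_lt hi)) (le_of_lt (hupos (i + 1) hi)))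
    (fun i hi => by
      rw [hu2, hu1, hu]
      exact hα i (le_of_lt hi))
    (fun i hi => by
      have hA : 0 < w (a0 + (i : ℤ)) := hupos i (le_of_lt hi)
      have hB : 0 < w (a0 + 1 + (i : ℤ)) := by
        have := hupos (i + 1) hi
        rwa [hu1] at this
      have hd := hdisc i (le_of_lt hi)
      show ((w (a0 + 1 + ((i + 1 : ℕ) : ℤ)) * y + l (a0 + ((i + 1 : ℕ) : ℤ)) * z)
            / w (a0 + ((i + 1 : ℕ) : ℤ))
          - (w (a0 + 1 + (i : ℤ)) * y + l (a0 + (i : ℤ)) * z) / w (a0 + (i : ℤ))) ^ 2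
        ≤ (u (i + 1) / u i - u (i + 2) / u (i + 1)) * (p i / u (i + 1))
      have e3 : a0 + 1 + ((i + 1 : ℕ) : ℤ) = a0 + 2 + (i : ℤ) := by
        push_cast
        ring
      have e4 : a0 + ((i + 1 : ℕ) : ℤ) = a0 + 1 + (i : ℤ) := by
        push_cast
        ring
      rw [e3, e4, hu2, hu1, hu]
      show _ ≤ (w (a0 + 1 + (i : ℤ)) / w (a0 + (i : ℤ))
            - w (a0 + 2 + (i : ℤ)) / w (a0 + 1 + (i : ℤ)))
          * (((w (a0 + 1 + (i : ℤ)) ^ 2 - w (a0 + (i : ℤ)) * w (a0 + 2 + (i : ℤ))) * y ^ 2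
            - 2 * (w (a0 + (i : ℤ)) * l (a0 + 1 + (i : ℤ))
                - w (a0 + 1 + (i : ℤ)) * l (a0 + (i : ℤ))) * y * z
            + (l (a0 + (i : ℤ)) ^ 2 - w (a0 + (i : ℤ)) * q (a0 + (i : ℤ))) * z ^ 2)
              / w (a0 + (i : ℤ)) / w (a0 + 1 + (i : ℤ)))
      generalize w (a0 + (i : ℤ)) = A at hA hd ⊢
      generalize w (a0 + 1 + (i : ℤ)) = B at hB hd ⊢
      generalize w (a0 + 2 + (i : ℤ)) = Cc at hd ⊢
      generalize l (a0 + (i : ℤ)) = la at hd ⊢
      generalize l (a0 + 1 + (i : ℤ)) = lb at hd ⊢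
      generalize q (a0 + (i : ℤ)) = qa at hd ⊢
      have key : (B / A - Cc / B)
            * (((B ^ 2 - A * Cc) * y ^ 2 - 2 * (A * lb - B * la) * y * z
              + (la ^ 2 - A * qa) * z ^ 2) / A / B)
          - ((Cc * y + lb * z) / B - (B * y + la * z) / A) ^ 2
          = z ^ 2 * ((B ^ 2 - A * Cc) * (la ^ 2 - A * qa) - (A * lb - B * la) ^ 2)
            / (A * B) ^ 2 := by
        field_simp
        ring
      have hnn : 0 ≤ z ^ 2 * ((B ^ 2 - A * Cc) * (la ^ 2 - A * qa) - (A * lb - B * la) ^ 2)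
            / (A * B) ^ 2 := by
        apply div_nonneg
        · exact mul_nonneg (sq_nonneg z) (by linarith)
        · positivity
      linarith)
  -- the two moments
  have hpdef : ∀ i : ℕ, p i =
      ((w (a0 + 1 + (i : ℤ)) ^ 2 - w (a0 + (i : ℤ)) * w (a0 + 2 + (i : ℤ))) * y ^ 2
        - 2 * (w (a0 + (i : ℤ)) * l (a0 + 1 + (i : ℤ)) - w (a0 + 1 + (i : ℤ)) * l (a0 + (i : ℤ)))
            * y * z
        + (l (a0 + (i : ℤ)) ^ 2 - w (a0 + (i : ℤ)) * q (a0 + (i : ℤ))) * z ^ 2)
        / w (a0 + (i : ℤ)) := fun i => rfl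
  have hS1 : ∑ i ∈ range (N + 1), u i * ((fun i => φ i + if i = 0 then s else 0) i)
      = (∑ i ∈ range (N + 1), w (a0 + 1 + (i : ℤ))) * y
        + (∑ i ∈ range (N + 1), l (a0 + (i : ℤ))) * z + s * w a0 := by
    have hterm : ∀ i ∈ range (N + 1), u i * ((fun i => φ i + if i = 0 then s else 0) i)
        = w (a0 + 1 + (i : ℤ)) * y + l (a0 + (i : ℤ)) * z
          + (if i = 0 then s * w (a0 + (i : ℤ)) else 0) := by
      intro i hi
      have hi' : i ≤ N := Nat.lt_succ_iff.mp (Finset.mem_range.mp hi)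
      have hA : w (a0 + (i : ℤ)) ≠ 0 := ne_of_gt (hupos i hi')
      show w (a0 + (i : ℤ)) * ((w (a0 + 1 + (i : ℤ)) * y + l (a0 + (i : ℤ)) * z)
          / w (a0 + (i : ℤ)) + if i = 0 then s else 0) = _
      by_cases h0 : i = 0
      · rw [if_pos h0, if_pos h0, mul_add, mul_div_cancel₀ _ hA]
        ring
      · rw [if_neg h0, if_neg h0, mul_add, mul_div_cancel₀ _ hA]
        ring
    rw [Finset.sum_congr rfl hterm, Finset.sum_add_distrib, Finset.sum_add_distrib,
      Finset.sum_ite_eq', ← Finset.sum_mul, ← Finset.sum_mul]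
    simp
  have hS2 : ∑ i ∈ range (N + 1), u i * ((fun i => φ i + if i = 0 then s else 0) i) ^ 2
      = (∑ i ∈ range (N + 1), w (a0 + 2 + (i : ℤ))) * y ^ 2
        + 2 * (∑ i ∈ range (N + 1), l (a0 + 1 + (i : ℤ))) * y * z
        + (∑ i ∈ range (N + 1), q (a0 + (i : ℤ))) * z ^ 2
        + ∑ i ∈ range (N + 1), p i
        + (2 * s * (w (a0 + 1) * y + l a0 * z) + s ^ 2 * w a0) := by
    have hterm : ∀ i ∈ range (N + 1), u i * ((fun i => φ i + if i = 0 then s else 0) i) ^ 2
        = w (a0 + 2 + (i : ℤ)) * y ^ 2 + 2 * l (a0 + 1 + (i : ℤ)) * y * z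
          + q (a0 + (i : ℤ)) * z ^ 2 + p i
          + (if i = 0 then 2 * s * (w (a0 + 1 + (i : ℤ)) * y + l (a0 + (i : ℤ)) * z)
              + s ^ 2 * w (a0 + (i : ℤ)) else 0) := by
      intro i hi
      have hi' : i ≤ N := Nat.lt_succ_iff.mp (Finset.mem_range.mp hi)
      have hA : w (a0 + (i : ℤ)) ≠ 0 := ne_of_gt (hupos i hi')
      show w (a0 + (i : ℤ)) * ((w (a0 + 1 + (i : ℤ)) * y + l (a0 + (i : ℤ)) * z)
          / w (a0 + (i : ℤ)) + if i = 0 then s else 0) ^ 2 = _
      rw [hpdef i]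
      by_cases h0 : i = 0
      · rw [if_pos h0, if_pos h0]
        field_simp
        ring
      · rw [if_neg h0, if_neg h0]
        field_simp
        ring
    rw [Finset.sum_congr rfl hterm, Finset.sum_add_distrib, Finset.sum_add_distrib,
      Finset.sum_add_distrib, Finset.sum_add_distrib, Finset.sum_ite_eq']
    have e1 : ∑ i ∈ range (N + 1), w (a0 + 2 + (i : ℤ)) * y ^ 2
        = (∑ i ∈ range (N + 1), w (a0 + 2 + (i : ℤ))) * y ^ 2 := by
      rw [Finset.sum_mul]
    have e2 : ∑ i ∈ range (N + 1), 2 * l (a0 + 1 + (i : ℤ)) * y * z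
        = 2 * (∑ i ∈ range (N + 1), l (a0 + 1 + (i : ℤ))) * y * z := by
      rw [Finset.mul_sum, Finset.sum_mul, Finset.sum_mul]
    have e3 : ∑ i ∈ range (N + 1), q (a0 + (i : ℤ)) * z ^ 2
        = (∑ i ∈ range (N + 1), q (a0 + (i : ℤ))) * z ^ 2 := by
      rw [Finset.sum_mul]
    rw [e1, e2, e3]
    simp
  -- the bound with slack
  have hXs_nonneg : ∀ t, 0 ≤ Xs u t := fun t => Finset.sum_nonneg (fun i _ => hwnn _)
  have hUb : Ub u e s N
      ≤ Xs u N * (∑ i ∈ range (N + 1), p i + (if N = 0 then 0 else s ^ 2 * w (a0 + 1))) := by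
    unfold Ub
    have hfirst : ∑ t ∈ range N, e t * (u (t + 1) * Xs u N - u (N + 1) * Xs u t)
        ≤ Xs u N * ∑ i ∈ range (N + 1), p i := by
      calc ∑ t ∈ range N, e t * (u (t + 1) * Xs u N - u (N + 1) * Xs u t)
          ≤ ∑ t ∈ range N, Xs u N * p t := by
            apply Finset.sum_le_sum
            intro t ht
            have htN : t < N := Finset.mem_range.mp ht
            have hut : 0 < u (t + 1) := hupos (t + 1) htN
            have het : 0 ≤ e t := div_nonneg (hp t (le_of_lt htN)) (le_of_lt hut)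
            have hpe : e t * u (t + 1) = p t := div_mul_cancel₀ _ (ne_of_gt hut)
            have h3 : 0 ≤ e t * (u (N + 1) * Xs u t) :=
              mul_nonneg het (mul_nonneg (hwnn _) (hXs_nonneg t))
            have h4 : e t * (u (t + 1) * Xs u N - u (N + 1) * Xs u t)
                = p t * Xs u N - e t * (u (N + 1) * Xs u t) := by
              rw [← hpe]
              ring
            rw [h4]
            linarith [mul_comm (p t) (Xs u N)]
        _ = Xs u N * ∑ t ∈ range N, p t := by rw [Finset.mul_sum]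
        _ ≤ Xs u N * ∑ i ∈ range (N + 1), p i := by
            apply mul_le_mul_of_nonneg_left _ (hXs_nonneg N)
            rw [Finset.sum_range_succ]
            linarith [hp N le_rfl]
    have hsecond : s ^ 2 * (u 1 * Xs u N - u 0 * u (N + 1))
        ≤ Xs u N * (if N = 0 then 0 else s ^ 2 * w (a0 + 1)) := by
      by_cases hN0 : N = 0
      · subst hN0
        have hX0 : Xs u 0 = u 0 := by
          unfold Xs
          simp
        rw [if_pos rfl, hX0]
        have h5 : u (0 + 1) = u 1 := rfl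
        rw [h5]
        have h6 : s ^ 2 * (u 1 * u 0 - u 0 * u 1) = 0 := by ring
        rw [h6]
        simp
      · rw [if_neg hN0]
        have hu1' : u 1 = w (a0 + 1) := by
          have := hu1 0
          simpa using this
        rw [hu1']
        have h4 : 0 ≤ s ^ 2 * (u 0 * u (N + 1)) :=
          mul_nonneg (sq_nonneg s) (mul_nonneg (hwnn _) (hwnn _))
        nlinarith
    rw [mul_add]
    linarith
  have hXsN : Xs u N = ∑ i ∈ range (N + 1), w (a0 + (i : ℤ)) := rfl
  unfold Vb at hcs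
  rw [hS1, hS2] at hcs
  rw [← hXsN]
  linarith

/-- The column step: `Lor` is preserved when a column of capacity `C` and weight `t` is added. -/
theorem Lor_step {m C : ℕ} {t : ℝ} {w l q : ℤ → ℝ} (h : Lor m w l q) :
    Lor (m + C) (addW C w) (addL C t w l) (addQ C t w l q) := by
  have hwnn := w_nonneg h
  have hh := h
  obtain ⟨hpos, hw0, hl0, hq0, hmain⟩ := h
  refine ⟨?_, ?_, ?_, ?_, ?_⟩
  · intro r hr0 hrm
    unfold addW
    apply Finset.sum_pos' (fun k _ => hwnn _)
    refine ⟨(r - (m : ℤ)).toNat, ?_, ?_⟩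
    · rw [Finset.mem_range]
      push_cast at hrm
      omega
    · apply hpos <;> omega
  · intro r hr
    unfold addW
    apply Finset.sum_eq_zero
    intro k hk
    rw [Finset.mem_range] at hk
    apply hw0
    push_cast at hr
    omega
  · intro r hr
    unfold addL
    push_cast at hr
    rw [Finset.sum_eq_zero (fun k hk => hl0 _ (by rw [Finset.mem_range] at hk; omega)),
      hw0 _ (by omega)]
    simp
  · intro r hr
    unfold addQ
    push_cast at hr
    rw [Finset.sum_eq_zero (fun k hk => hq0 _ (by rw [Finset.mem_range] at hk; omega)),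
      hl0 _ (by omega), hw0 (r - (C : ℤ)) (by omega)]
    by_cases hC : 1 ≤ C
    · rw [if_pos hC, hw0 _ (by omega)]
      simp
    · rw [if_neg hC]
      simp
  · intro r hr0 hrm y z
    push_cast at hrm
    have hgoal : addW C w r * (addW C w (r + 2) * y ^ 2 + 2 * addL C t w l (r + 1) * y * z
          + addQ C t w l q r * z ^ 2)
        ≤ (addW C w (r + 1) * y + addL C t w l r * z) ^ 2 := by
      by_cases hCr : (C : ℤ) ≤ r
      · -- the window lies above zero
        obtain ⟨a, ha⟩ : ∃ a : ℤ, a = r - (C : ℤ) := ⟨_, rfl⟩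
        obtain ⟨N, hN⟩ : ∃ N : ℕ, a + (N : ℤ) = min r (m : ℤ) :=
          ⟨(min r (m : ℤ) - a).toNat, by omega⟩
        have hW0 : addW C w r = ∑ i ∈ range (N + 1), w (a + (i : ℤ)) :=
          sum_window w m hw0 r C a (N + 1) (by omega) (by push_cast; omega) (Or.inr ha)
            (by push_cast; omega)
        have hW1 : addW C w (r + 1) = ∑ i ∈ range (N + 1), w (a + 1 + (i : ℤ)) :=
          sum_window w m hw0 (r + 1) C (a + 1) (N + 1) (by omega) (by push_cast; omega)
            (Or.inr (by omega)) (by push_cast; omega)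
        have hW2 : addW C w (r + 2) = ∑ i ∈ range (N + 1), w (a + 2 + (i : ℤ)) :=
          sum_window w m hw0 (r + 2) C (a + 2) (N + 1) (by omega) (by push_cast; omega)
            (Or.inr (by omega)) (by push_cast; omega)
        have hL0 : addL C t w l r = ∑ i ∈ range (N + 1), l (a + (i : ℤ)) + t * w a := by
          unfold addL
          rw [sum_window l m hl0 r C a (N + 1) (by omega) (by push_cast; omega) (Or.inr ha)
            (by push_cast; omega), ← ha]
        have hL1 : addL C t w l (r + 1)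
            = ∑ i ∈ range (N + 1), l (a + 1 + (i : ℤ)) + t * w (a + 1) := by
          unfold addL
          have e : r + 1 - (C : ℤ) = a + 1 := by omega
          rw [sum_window l m hl0 (r + 1) C (a + 1) (N + 1) (by omega) (by push_cast; omega)
            (Or.inr (by omega)) (by push_cast; omega), e]
        have hQ0 : addQ C t w l q r = ∑ i ∈ range (N + 1), q (a + (i : ℤ)) + 2 * t * l a
            + t ^ 2 * (w a - if 1 ≤ C then w (a + 1) else 0) := by
          unfold addQ
          rw [sum_window q m hq0 r C a (N + 1) (by omega) (by push_cast; omega) (Or.inr ha)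
            (by push_cast; omega), ← ha]
        have hwm := window_main hh a N (by omega) (by omega) y z (t * z)
        have hS0 : 0 ≤ ∑ i ∈ range (N + 1), w (a + (i : ℤ)) :=
          Finset.sum_nonneg (fun i _ => hwnn _)
        have hκ : (if N = 0 then 0 else (t * z) ^ 2 * w (a + 1))
            ≤ (t * z) ^ 2 * (if 1 ≤ C then w (a + 1) else 0) := by
          by_cases hN0 : N = 0
          · rw [if_pos hN0]
            apply mul_nonneg (sq_nonneg _)
            split_ifs
            · exact hwnn _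
            · exact le_refl 0
          · have hC1 : 1 ≤ C := by omega
            rw [if_neg hN0, if_pos hC1]
        have hκ' := mul_le_mul_of_nonneg_left hκ hS0
        rw [hW0, hW1, hW2, hL0, hL1, hQ0]
        linarith
      · -- the window reaches below zero
        have hCr' : r < (C : ℤ) := not_le.mp hCr
        obtain ⟨N, hN⟩ : ∃ N : ℕ, (N : ℤ) = min r (m : ℤ) := ⟨(min r (m : ℤ)).toNat, by omega⟩
        obtain ⟨ω, hω⟩ : ∃ ω : ℝ, ω = w (r - (C : ℤ) + 1) := ⟨_, rfl⟩
        have hω0 : 0 ≤ ω := by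
          rw [hω]
          exact hwnn _
        have hc1 : ∀ i : ℕ, (0 : ℤ) + ((i + 1 : ℕ) : ℤ) = 0 + 1 + (i : ℤ) := by
          intro i
          push_cast
          ring
        have hc2 : ∀ i : ℕ, (0 : ℤ) + ((i + 1 + 1 : ℕ) : ℤ) = 0 + 2 + (i : ℤ) := by
          intro i
          push_cast
          ring
        have hc3 : ∀ i : ℕ, (1 : ℤ) + ((i + 1 : ℕ) : ℤ) = 0 + 2 + (i : ℤ) := by
          intro i
          push_cast
          ring
        have hW0 : addW C w r = ∑ i ∈ range (N + 1), w (0 + (i : ℤ)) :=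
          sum_window w m hw0 r C 0 (N + 1) (by omega) (by push_cast; omega) (Or.inl le_rfl)
            (by push_cast; omega)
        have hW1 : addW C w (r + 1) = w 0 + ∑ i ∈ range (N + 1), w (0 + 1 + (i : ℤ)) := by
          have h1 : addW C w (r + 1) = ∑ i ∈ range (N + 2), w (0 + (i : ℤ)) :=
            sum_window w m hw0 (r + 1) C 0 (N + 2) (by omega) (by push_cast; omega)
              (Or.inl le_rfl) (by push_cast; omega)
          rw [h1, Finset.sum_range_succ', Finset.sum_congr rfl (fun i _ => by rw [hc1 i])]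
          simp
          ring
        have hL0 : addL C t w l r = ∑ i ∈ range (N + 1), l (0 + (i : ℤ)) := by
          unfold addL
          rw [sum_window l m hl0 r C 0 (N + 1) (by omega) (by push_cast; omega) (Or.inl le_rfl)
            (by push_cast; omega), hw0 _ (by omega)]
          simp
        have hL1 : addL C t w l (r + 1)
            = l 0 + ∑ i ∈ range (N + 1), l (0 + 1 + (i : ℤ)) + t * ω := by
          unfold addL
          have e : r + 1 - (C : ℤ) = r - (C : ℤ) + 1 := by ring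
          rw [sum_window l m hl0 (r + 1) C 0 (N + 2) (by omega) (by push_cast; omega)
            (Or.inl le_rfl) (by push_cast; omega), e, ← hω, Finset.sum_range_succ',
            Finset.sum_congr rfl (fun i _ => by rw [hc1 i])]
          simp
          ring
        have hQ0 : addQ C t w l q r = ∑ i ∈ range (N + 1), q (0 + (i : ℤ)) - t ^ 2 * ω := by
          unfold addQ
          have hC1 : 1 ≤ C := by omega
          rw [sum_window q m hq0 r C 0 (N + 1) (by omega) (by push_cast; omega) (Or.inl le_rfl)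
            (by push_cast; omega), hl0 _ (by omega), hw0 (r - (C : ℤ)) (by omega), if_pos hC1,
            ← hω]
          ring
        have hW2 : addW C w (r + 2)
            = (w 0 - ω) + w 1 + ∑ i ∈ range (N + 1), w (0 + 2 + (i : ℤ)) := by
          by_cases h2 : r + 2 ≤ (C : ℤ)
          · have hω' : ω = 0 := by
              rw [hω]
              exact hw0 _ (by omega)
            have h1 : addW C w (r + 2) = ∑ i ∈ range (N + 3), w (0 + (i : ℤ)) :=
              sum_window w m hw0 (r + 2) C 0 (N + 3) (by omega) (by push_cast; omega)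
                (Or.inl le_rfl) (by push_cast; omega)
            rw [h1, Finset.sum_range_succ', Finset.sum_range_succ',
              Finset.sum_congr rfl (fun i _ => by rw [hc2 i]), hω']
            simp
            ring
          · have hω' : ω = w 0 := by
              rw [hω]
              congr 1
              omega
            have h1 : addW C w (r + 2) = ∑ i ∈ range (N + 2), w (1 + (i : ℤ)) :=
              sum_window w m hw0 (r + 2) C 1 (N + 2) (by omega) (by push_cast; omega)
                (Or.inr (by omega)) (by push_cast; omega)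
            rw [h1, Finset.sum_range_succ', Finset.sum_congr rfl (fun i _ => by rw [hc3 i]), hω']
            simp
            ring
        have hwm := window_main hh 0 N le_rfl (by omega) y z y
        simp only [zero_add] at hwm hW0 hW1 hW2 hL0 hL1 hQ0
        have hS0 : 0 ≤ ∑ i ∈ range (N + 1), w (i : ℤ) :=
          Finset.sum_nonneg (fun i _ => hwnn _)
        have hκ : (if N = 0 then 0 else y ^ 2 * w 1) ≤ y ^ 2 * w 1 := by
          split_ifs
          · exact mul_nonneg (sq_nonneg _) (hwnn _)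
          · exact le_refl _
        have hκ' := mul_le_mul_of_nonneg_left hκ hS0
        have hsq : 0 ≤ (∑ i ∈ range (N + 1), w (i : ℤ)) * (ω * (y - t * z) ^ 2) :=
          mul_nonneg hS0 (mul_nonneg hω0 (sq_nonneg _))
        rw [hW0, hW1, hW2, hL0, hL1, hQ0]
        nlinarith [hwm, hκ', hsq]
    have e : (addW C w (r + 1) ^ 2 - addW C w r * addW C w (r + 2)) * y ^ 2
        - 2 * (addW C w r * addL C t w l (r + 1) - addW C w (r + 1) * addL C t w l r) * y * z
        + (addL C t w l r ^ 2 - addW C w r * addQ C t w l q r) * z ^ 2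
        = (addW C w (r + 1) * y + addL C t w l r * z) ^ 2
          - addW C w r * (addW C w (r + 2) * y ^ 2 + 2 * addL C t w l (r + 1) * y * z
            + addQ C t w l q r * z ^ 2) := by ring
    rw [e]
    linarith

end Vale.Agent.Lib.P328.helper46
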